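import Vale.Agent.P216.B7.Props
import Vale.Agent.P216.H539B.R2

/-!
# P216-B7, Z8: small balls of the infinite cyclic covering are acyclic
-/

set_option linter.all false

open Set Filter Topology

namespace Vale.Agent.P216.B7921

open Vale.Agent.P216.Sl Vale.Agent.P216.PS
open Vale.Agent.P216.B7 (ex Xt Slb)
open Vale.Agent.P216.LS (UniqSeg)
open Vale.Agent.P216.AS (IsMap IsHtpy)
open Vale.Agent.P216.H901 (tr on)

/-! ### the exponential -/

theorem ex_add (r s : ℝ) : ex (r + s) = ex r * ex s := by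
  simp only [ex, mul_add, Circle.exp_add]

theorem continuous_ex : Continuous ex :=
  Circle.exp.continuous.comp (continuous_const.mul continuous_id)

theorem ex_dist {r r' : ℝ} (h : |r - r'| ≤ 1 / 2) : 4 * |r - r'| ≤ dist (ex r) (ex r') := by
  have e1 : ex r = ex r' * ex (r - r') := by rw [← ex_add]; congr 1; ring
  have e2 : dist (ex r) (ex r') = ‖((ex (r - r') : Circle) : ℂ) - 1‖ := by
    rw [e1]
    show dist ((ex r' * ex (r - r') : Circle) : ℂ) (ex r' : ℂ) = _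
    rw [dist_eq_norm, Circle.coe_mul]
    have : ((ex r' : Circle) : ℂ) * (ex (r - r') : Circle) - (ex r' : Circle) =
        (ex r' : Circle) * (((ex (r - r') : Circle) : ℂ) - 1) := by ring
    rw [this, norm_mul, Circle.norm_coe, one_mul]
  have e3 : ((ex (r - r') : Circle) : ℂ) =
      Complex.exp (Complex.I * ((2 * Real.pi * (r - r') : ℝ) : ℂ)) := by
    rw [ex, Circle.coe_exp, mul_comm]
  rw [e2, e3, Complex.norm_exp_I_mul_ofReal_sub_one]
  have e4 : 2 * Real.pi * (r - r') / 2 = Real.pi * (r - r') := by ring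
  rw [e4, Real.norm_eq_abs, abs_mul, abs_two]
  have hpi := Real.pi_pos
  have h1 : 2 * |r - r'| ≤ |Real.sin (Real.pi * (r - r'))| := by
    have h2 : Real.sin (Real.pi * |r - r'|) ≤ |Real.sin (Real.pi * (r - r'))| := by
      rcases abs_cases (r - r') with ⟨h3, -⟩ | ⟨h3, -⟩
      · rw [h3]; exact le_abs_self _
      · rw [h3, mul_neg, Real.sin_neg]; exact neg_le_abs _
    refine le_trans ?_ h2
    have h5 := Real.mul_le_sin (x := Real.pi * |r - r'|) (by positivity)
      (by nlinarith [abs_nonneg (r - r')])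
    have h6 : 2 / Real.pi * (Real.pi * |r - r'|) = 2 * |r - r'| := by field_simp
    rwa [h6] at h5
  linarith

section

variable {M : Type} [MetricSpace M] {h : C(M, Circle)}

theorem isClosed_Xt : IsClosed (Xt h) :=
  isClosed_eq (h.continuous.comp continuous_fst) (continuous_ex.comp continuous_snd)

/-- the lift near the point `p` of `Xt h` -/
noncomputable def lf (h : C(M, Circle)) (p : M × ℝ) (y : M) : ℝ :=
  p.2 + Complex.arg ((h y / h p.1 : Circle) : ℂ) / (2 * Real.pi)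

theorem ex_lf {p : M × ℝ} (hp : p ∈ Xt h) (y : M) : ex (lf h p y) = h y := by
  have hp' : h p.1 = ex p.2 := hp
  rw [lf, ex_add, ← hp']
  have : ex (Complex.arg ((h y / h p.1 : Circle) : ℂ) / (2 * Real.pi)) = h y / h p.1 := by
    rw [ex, mul_div_cancel₀ _ (by positivity)]
    exact Circle.exp_arg _
  rw [this, mul_div_cancel]

theorem lf_self (p : M × ℝ) : lf h p p.1 = p.2 := by
  rw [lf, div_self', Circle.coe_one, Complex.arg_one, zero_div, add_zero]

theorem abs_lf {p : M × ℝ} (hp : p ∈ Xt h) (y : M) :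
    4 * |lf h p y - p.2| ≤ dist (h y) (h p.1) := by
  have h1 : |lf h p y - p.2| ≤ 1 / 2 := by
    rw [lf, add_sub_cancel_left, abs_div, abs_of_pos (by positivity : (0 : ℝ) < 2 * Real.pi),
      div_le_iff₀ (by positivity)]
    have := Complex.abs_arg_le_pi ((h y / h p.1 : Circle) : ℂ)
    linarith
  have h2 := ex_dist h1
  have hp' : h p.1 = ex p.2 := hp
  rwa [ex_lf hp, ← hp'] at h2

theorem eq_lf {p q : M × ℝ} (hp : p ∈ Xt h) (hq : q ∈ Xt h) (h1 : |q.2 - p.2| ≤ 1 / 4)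
    (h2 : dist (h q.1) (h p.1) ≤ 1 / 2) : q.2 = lf h p q.1 := by
  have h3 := abs_lf hp q.1
  have hq' : h q.1 = ex q.2 := hq
  have h4 : |q.2 - lf h p q.1| ≤ 1 / 2 := by
    have := abs_sub_le q.2 p.2 (lf h p q.1)
    rw [abs_sub_comm p.2] at this
    linarith
  have h5 := ex_dist h4
  rw [ex_lf hp, hq', dist_self] at h5
  have h6 := abs_nonneg (q.2 - lf h p q.1)
  have h7 : |q.2 - lf h p q.1| = 0 := by linarith
  linarith [abs_eq_zero.1 h7]

theorem continuousOn_lf (p : M × ℝ) :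
    ContinuousOn (lf h p) {y | dist (h y) (h p.1) ≤ 1 / 2} := by
  intro y hy
  refine ContinuousAt.continuousWithinAt ?_
  have h1 : ((h y / h p.1 : Circle) : ℂ) ∈ Complex.slitPlane := by
    rw [Complex.mem_slitPlane_iff]
    left
    have h2 : ‖((h y / h p.1 : Circle) : ℂ) - 1‖ ≤ 1 / 2 := by
      have h3 : dist (h y) (h p.1) = ‖((h y / h p.1 : Circle) : ℂ) - 1‖ := by
        show dist ((h y : Circle) : ℂ) (h p.1 : ℂ) = _
        rw [dist_eq_norm]
        have e : ((h y : Circle) : ℂ) - (h p.1 : Circle) =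
            (h p.1 : Circle) * (((h y / h p.1 : Circle) : ℂ) - 1) := by
          rw [mul_sub, mul_one, ← Circle.coe_mul, mul_div_cancel]
        rw [e, norm_mul, Circle.norm_coe, one_mul]
      rw [← h3]; exact hy
    have h4 := Complex.abs_re_le_norm (((h y / h p.1 : Circle) : ℂ) - 1)
    rw [Complex.sub_re, Complex.one_re] at h4
    have h5 := neg_abs_le (((h y / h p.1 : Circle) : ℂ).re - 1)
    linarith
  have h2 : ContinuousAt (fun y => ((h y / h p.1 : Circle) : ℂ)) y :=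
    (continuous_subtype_val.comp (h.continuous.div' continuous_const)).continuousAt
  exact continuousAt_const.add ((ContinuousAt.comp (f := fun y => ((h y / h p.1 : Circle) : ℂ))
    (g := Complex.arg) (Complex.continuousAt_arg h1) h2).div_const _)

/-- small balls of `Xt h` -/
def Bl (h : C(M, Circle)) (p : M × ℝ) (t : ℝ) : Set (M × ℝ) :=
  {q | q ∈ Xt h ∧ dist q.1 p.1 ≤ t ∧ |q.2 - p.2| ≤ 1 / 4}

theorem Bl_mono {p : M × ℝ} {s t : ℝ} (hst : s ≤ t) : Bl h p s ⊆ Bl h p t :=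
  fun _ hq => ⟨hq.1, hq.2.1.trans hst, hq.2.2⟩

theorem self_mem_Bl {p : M × ℝ} (hp : p ∈ Xt h) {t : ℝ} (ht : 0 ≤ t) : p ∈ Bl h p t :=
  ⟨hp, by rwa [dist_self], by rw [sub_self, abs_zero]; norm_num⟩

theorem isCompact_Bl [CompactSpace M] (p : M × ℝ) (t : ℝ) : IsCompact (Bl h p t) := by
  have h1 : IsCompact ((univ : Set M) ×ˢ Icc (p.2 - 1 / 4) (p.2 + 1 / 4)) :=
    isCompact_univ.prod isCompact_Icc
  refine h1.of_isClosed_subset ?_ ?_
  · have e : Bl h p t = Xt h ∩ ({q | dist q.1 p.1 ≤ t} ∩ {q | |q.2 - p.2| ≤ 1 / 4}) := rfl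
    rw [e]
    refine isClosed_Xt.inter (IsClosed.inter ?_ ?_)
    · exact isClosed_le (by fun_prop) continuous_const
    · exact isClosed_le (by fun_prop) continuous_const
  · rintro q ⟨-, -, hq⟩
    rw [abs_le] at hq
    exact ⟨mem_univ _, by linarith [hq.1], by linarith [hq.2]⟩

/-- good radii -/
structure Rad (h : C(M, Circle)) (ρ t : ℝ) : Prop where
  lt : t < ρ
  uc : ∀ x y, dist x y ≤ t → dist (h x) (h y) ≤ 1 / 2

theorem Rad.mono {ρ t s : ℝ} (ht : Rad h ρ t) (hst : s ≤ t) : Rad h ρ s :=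
  ⟨hst.trans_lt ht.lt, fun x y hxy => ht.uc x y (hxy.trans hst)⟩

variable {k : Type} [Field k]

theorem exL_single {E : Type} [PseudoMetricSpace E] {p : E} {m : ℕ} {f : List E → k}
    (hf : CocL {p} m f) (hm : 1 ≤ m) : ExL {p} m f := by
  obtain ⟨ε, hε, hf⟩ := hf
  refine ⟨fun l => f (p :: l), fun h0 => absurd h0 (by omega), ε, hε, fun l hl hs => ?_⟩
  have h1 : dl f (p :: l) = 0 := by
    refine hf _ (by simp [hl]) ⟨?_, ?_⟩
    · intro x hx
      rcases List.mem_cons.1 hx with rfl | hx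
      · exact mem_singleton _
      · exact hs.1 x hx
    · have hall : ∀ x ∈ p :: l, x = p := by
        intro x hx
        rcases List.mem_cons.1 hx with rfl | hx
        · rfl
        · exact hs.1 x hx
      intro x hx y hy
      rw [hall x hx, hall y hy, dist_self]
      exact hε
  rw [dl_cons] at h1
  linear_combination h1

/-- the contraction of a ball -/
noncomputable def Dc (h : C(M, Circle)) (p : M × ℝ) (τ : ℝ) (q : M × ℝ) : M × ℝ :=
  (LS.seg q.1 p.1 τ, lf h p (LS.seg q.1 p.1 τ))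

theorem htpy_Bl [CompactSpace M] {ρ : ℝ} (hU : UniqSeg M ρ) {p : M × ℝ} (hp : p ∈ Xt h) {t : ℝ}
    (ht : Rad h ρ t) : IsHtpy (tr (M × ℝ)) (tr (M × ℝ)) (Bl h p t) (Bl h p t) (Dc h p) := by
  have hd : ∀ q ∈ Bl h p t, ∀ τ ∈ Icc (0 : ℝ) 1, dist (LS.seg q.1 p.1 τ) p.1 ≤ t := by
    intro q hq τ hτ
    rw [LS.dist_seg_right hU (hq.2.1.trans_lt ht.lt) hτ]
    refine le_trans ?_ hq.2.1
    exact mul_le_of_le_one_left dist_nonneg (by linarith [hτ.1])
  refine IsHtpy.of_continuousOn (isCompact_Bl p t) ?_ ?_ fun _ _ i => i.elim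
  · have h1 : ContinuousOn (fun a : ℝ × (M × ℝ) => LS.seg a.2.1 p.1 a.1)
        (Icc (0 : ℝ) 1 ×ˢ Bl h p t) := by
      refine LS.ContinuousOn.seg hU (f := fun a : ℝ × (M × ℝ) => a.2.1) (g := fun _ => p.1)
        (τ := fun a => a.1) (by fun_prop) continuousOn_const (by fun_prop) ?_ ?_
      · exact fun a ha => ha.2.2.1.trans_lt ht.lt
      · exact fun a ha => ha.1
    refine h1.prodMk ((continuousOn_lf p).comp h1 fun a ha => ?_)
    exact ht.uc _ _ (hd a.2 ha.2 a.1 ha.1)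
  · intro τ hτ q hq
    have h1 := hd q hq τ hτ
    have h2 := ht.uc _ _ h1
    refine ⟨(ex_lf hp _).symm, h1, ?_⟩
    have := abs_lf hp (LS.seg q.1 p.1 τ)
    show |lf h p (LS.seg q.1 p.1 τ) - p.2| ≤ 1 / 4
    linarith

theorem Dc_zero {ρ : ℝ} (hU : UniqSeg M ρ) {p q : M × ℝ} (hp : p ∈ Xt h) {t : ℝ}
    (ht : Rad h ρ t) (hq : q ∈ Bl h p t) : Dc h p 0 q = q := by
  have h1 := LS.dist_left_seg hU (hq.2.1.trans_lt ht.lt) (t := 0) (by simp)
  rw [zero_mul, dist_eq_zero] at h1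
  rw [Dc, ← h1, ← eq_lf hp hq.1 hq.2.2 (ht.uc _ _ hq.2.1)]

theorem Dc_one {ρ : ℝ} (hU : UniqSeg M ρ) {p q : M × ℝ} {t : ℝ}
    (ht : Rad h ρ t) (hq : q ∈ Bl h p t) : Dc h p 1 q = p := by
  have h1 := LS.dist_seg_right hU (hq.2.1.trans_lt ht.lt) (t := 1) (by simp)
  rw [sub_self, zero_mul, dist_eq_zero] at h1
  rw [Dc, h1, lf_self]

/-- **small balls are acyclic** -/
theorem exL_Bl [CompactSpace M] {ρ : ℝ} (hU : UniqSeg M ρ) {p : M × ℝ} (hp : p ∈ Xt h) {t : ℝ}
    (ht : Rad h ρ t) (h0 : 0 ≤ t) {m : ℕ} {f : List (M × ℝ) → k} (hf : CocL (Bl h p t) m f)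
    (hx : ExL {p} m f) : ExL (Bl h p t) m f :=
  H539B.exL_htpy (htpy_Bl hU hp ht) (fun q hq => Dc_zero hU hp ht hq)
    (fun q hq => by rw [Dc_one hU ht hq]; exact mem_singleton p)
    (singleton_subset_iff.2 (self_mem_Bl hp h0)) hf hx

theorem exL_Bl_pos [CompactSpace M] {ρ : ℝ} (hU : UniqSeg M ρ) {p : M × ℝ} (hp : p ∈ Xt h)
    {t : ℝ} (ht : Rad h ρ t) (h0 : 0 ≤ t) {m : ℕ} (hm : 1 ≤ m) {f : List (M × ℝ) → k}
    (hf : CocL (Bl h p t) m f) : ExL (Bl h p t) m f :=
  exL_Bl hU hp ht h0 hf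
    (exL_single (hf.mono (singleton_subset_iff.2 (self_mem_Bl hp h0))) hm)

/-- cocycles of degree `0` are constant on small balls -/
theorem val_Bl [CompactSpace M] {ρ : ℝ} (hU : UniqSeg M ρ) {p : M × ℝ} (hp : p ∈ Xt h) {t : ℝ}
    (ht : Rad h ρ t) (h0 : 0 ≤ t) {f : List (M × ℝ) → k} (hf : CocL (Bl h p t) 0 f)
    {q : M × ℝ} (hq : q ∈ Bl h p t) : f [q] = f [p] := by
  set f' : List (M × ℝ) → k := fun l => f l + (-f [p]) with hf'
  have h1 : CocL (Bl h p t) 0 f' := by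
    obtain ⟨ε, hε, h2⟩ := hf
    refine ⟨ε, hε, fun l hl hs => ?_⟩
    have h3 := ev_add_fun f (fun _ => -f [p]) (bdL l)
    have h4 := H971.Low.dl_const (-f [p]) l
    rw [hl, if_neg (by decide)] at h4
    have h5 := h2 l hl hs
    simp only [dl] at h4 h5 ⊢
    rw [h3, h4, h5, add_zero]
  have h2 : ExL {p} 0 f' := by
    refine ⟨fun _ => 0, fun _ _ => rfl, 1, one_pos, fun l hl hs => ?_⟩
    obtain ⟨x, rfl⟩ := List.length_eq_one_iff.1 hl
    have : x = p := hs.1 x (List.mem_singleton_self x)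
    subst this
    rw [H971.Low.dl_const]
    simp [hf']
  obtain ⟨g, hg, ε, hε, h3⟩ := exL_Bl hU hp ht h0 h1 h2
  have h4 := h3 [q] rfl ⟨fun z hz => by rw [List.mem_singleton.1 hz]; exact hq,
    fun z hz z' hz' => by
      rw [List.mem_singleton.1 hz, List.mem_singleton.1 hz', dist_self]; exact hε⟩
  have h5 : g = fun _ => 0 := funext fun l => hg rfl l
  rw [h5, H971.Low.dl_const] at h4
  simp only [hf', List.length_singleton] at h4
  have h6 : f [q] + -f [p] = 0 := by simpa using h4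
  linear_combination h6

end

end Vale.Agent.P216.B7921
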