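import Vale.Agent.P216.B7921.Fi
import Vale.Agent.P216.B7921.Ball
import Vale.Agent.P216.B7893.Glue

/-!
# P216-B7, Z8: the classes of a slab of the infinite cyclic covering restrict to finitely many
classes of a smaller slab
-/

set_option linter.all false

open Set Filter Topology

namespace Vale.Agent.P216.B7921

open Vale.Agent.P216.Sl Vale.Agent.P216.PS
open Vale.Agent.P216.B7 (ex Xt Slb)
open Vale.Agent.P216.LS (UniqSeg)

theorem glueH (E : Type) [MetricSpace E] : GlueH E :=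
  fun A B hA hB m f a b hf ha hb hab => B7893.exL_glue hA hB hf ha hb hab

theorem exL_empty {E : Type} [PseudoMetricSpace E] {k : Type} [Field k] (m : ℕ) (f : List E → k) :
    ExL (∅ : Set E) m f := by
  refine ⟨fun _ => 0, fun _ _ => rfl, 1, one_pos, fun l hl hs => ?_⟩
  cases l with
  | nil => simp at hl
  | cons x l => exact absurd (hs.1 x List.mem_cons_self) (Set.notMem_empty x)

section

variable {M : Type} [MetricSpace M] {h : C(M, Circle)}

/-- thickening in `Xt h` -/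
def th (h : C(M, Circle)) (δ : ℝ) (C : Set (M × ℝ)) : Set (M × ℝ) :=
  {y | y ∈ Xt h ∧ ∃ x ∈ C, dist y x ≤ δ}

/-- union of small balls -/
def Ks (h : C(M, Circle)) (S : Finset (M × ℝ)) (t : ℝ) : Set (M × ℝ) := ⋃ p ∈ S, Bl h p t

theorem mem_Ks {S : Finset (M × ℝ)} {t : ℝ} {q : M × ℝ} :
    q ∈ Ks h S t ↔ ∃ p ∈ S, q ∈ Bl h p t := by
  simp [Ks]

theorem Ks_mono {S : Finset (M × ℝ)} {s t : ℝ} (hst : s ≤ t) : Ks h S s ⊆ Ks h S t := by
  intro q hq
  rw [mem_Ks] at hq ⊢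
  obtain ⟨p, hp, hq⟩ := hq
  exact ⟨p, hp, Bl_mono hst hq⟩

theorem Ks_insert [DecidableEq (M × ℝ)] {S : Finset (M × ℝ)} {p : M × ℝ} {t : ℝ} :
    Ks h (insert p S) t = Bl h p t ∪ Ks h S t := by
  ext q
  rw [mem_union, mem_Ks, mem_Ks]
  simp [or_and_right, exists_or]

theorem isCompact_Ks [CompactSpace M] (S : Finset (M × ℝ)) (t : ℝ) : IsCompact (Ks h S t) :=
  S.isCompact_biUnion fun p _ => isCompact_Bl p t

theorem abs_Bl {ρ t : ℝ} (ht : Rad h ρ t) {p q : M × ℝ} (hp : p ∈ Xt h) (hq : q ∈ Bl h p t) :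
    4 * |q.2 - p.2| ≤ dist (h q.1) (h p.1) := by
  rw [eq_lf hp hq.1 hq.2.2 (ht.uc _ _ hq.2.1)]
  exact abs_lf hp q.1

theorem th_Bl {ρ s u δ : ℝ} (hs : Rad h ρ s) {p : M × ℝ} (hp : p ∈ Xt h) {y x : M × ℝ}
    (hy : y ∈ Xt h) (hx : x ∈ Bl h p s) (hd : dist y x ≤ δ) (h1 : δ ≤ u - s) (h2 : δ ≤ 1 / 8) :
    y ∈ Bl h p u := by
  have h3 : dist y.1 x.1 ≤ dist y x := le_max_left _ _
  have h4 : dist y.2 x.2 ≤ dist y x := le_max_right _ _
  refine ⟨hy, ?_, ?_⟩
  · have := dist_triangle y.1 x.1 p.1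
    have := hx.2.1
    linarith
  · have h5 := abs_Bl hs hp hx
    have h6 := hs.uc _ _ hx.2.1
    have h7 := dist_triangle y.2 x.2 p.2
    rw [Real.dist_eq, Real.dist_eq x.2 p.2] at h7
    linarith

/-- the statement proved by induction -/
def PP (h : C(M, Circle)) (m : ℕ) : Prop :=
  ∀ C : Set (M × ℝ), IsCompact C → C ⊆ Xt h → ∀ δ > 0, Fi (th h δ C) C m

theorem exists_net [CompactSpace M] {ρ : ℝ} (hρ : 0 < ρ) {C : Set (M × ℝ)} (hC : IsCompact C)
    {δ : ℝ} (hδ : 0 < δ) (hCX : C ⊆ Xt h) : ∃ t > 0, Rad h ρ t ∧ ∃ S : Finset (M × ℝ),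
      (∀ p ∈ S, p ∈ C) ∧ C ⊆ Ks h S (t / 2) ∧ ∀ p ∈ S, Bl h p t ⊆ th h δ C := by
  have huc := CompactSpace.uniformContinuous_of_continuous h.continuous
  obtain ⟨η, hη, h1⟩ := Metric.uniformContinuous_iff.1 huc (min (4 * δ) (1 / 2)) (by positivity)
  set t : ℝ := min (min (η / 2) (ρ / 2)) δ with ht
  have ht0 : 0 < t := by positivity
  have htη : t ≤ η / 2 := (min_le_left _ _).trans (min_le_left _ _)
  have htρ : t ≤ ρ / 2 := (min_le_left _ _).trans (min_le_right _ _)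
  have htδ : t ≤ δ := min_le_right _ _
  have h2 : ∀ x y, dist x y ≤ t → dist (h x) (h y) < min (4 * δ) (1 / 2) := fun x y hxy =>
    h1 (by linarith)
  have hR : Rad h ρ t := ⟨by linarith, fun x y hxy => ((h2 x y hxy).trans_le (min_le_right _ _)).le⟩
  obtain ⟨S, hSC, hSf, hS⟩ := hC.finite_cover_balls (e := min (t / 2) (1 / 4)) (by positivity)
  refine ⟨t, ht0, hR, hSf.toFinset, fun p hp => hSC (hSf.mem_toFinset.1 hp), fun q hq => ?_,
    fun p hp y hy => ?_⟩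
  · obtain ⟨p, hp, hqp⟩ := mem_iUnion₂.1 (hS hq)
    rw [Metric.mem_ball] at hqp
    refine mem_Ks.2 ⟨p, hSf.mem_toFinset.2 hp, hCX hq, ?_, ?_⟩
    · exact (le_max_left _ _).trans (hqp.le.trans (min_le_left _ _))
    · rw [← Real.dist_eq]
      exact (le_max_right _ _).trans (hqp.le.trans (min_le_right _ _))
  · have hpC : p ∈ C := hSC (hSf.mem_toFinset.1 hp)
    refine ⟨hy.1, p, hpC, ?_⟩
    have h3 := abs_Bl hR (hCX hpC) hy
    have h4 := (h2 _ _ hy.2.1).trans_le (min_le_left _ _)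
    refine max_le (hy.2.1.trans htδ) ?_
    rw [Real.dist_eq]
    linarith

theorem PP_zero [CompactSpace M] {ρ : ℝ} (hρ : 0 < ρ) (hU : UniqSeg M ρ) : PP h 0 := by
  classical
  intro C hC hCX δ hδ
  obtain ⟨t, ht0, hR, S, hSC, hCS, hST⟩ := exists_net hρ hC hδ hCX
  let val : (S → ZMod 2) → M × ℝ → ZMod 2 := fun v q =>
    if hq : ∃ p : S, q ∈ Bl h p.1 t then v hq.choose else 0
  refine ⟨S → ZMod 2, inferInstance, fun v l => (l.map (val v)).sum, fun f hf => ?_⟩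
  refine ⟨fun p => f [p.1], fun _ => 0, fun _ _ => rfl, 1, one_pos, fun l hl hs => ?_⟩
  obtain ⟨q, rfl⟩ := List.length_eq_one_iff.1 hl
  have hq : q ∈ C := hs.1 q (List.mem_singleton_self q)
  have hex : ∃ p : S, q ∈ Bl h p.1 t := by
    obtain ⟨p, hp, hqp⟩ := mem_Ks.1 (hCS hq)
    exact ⟨⟨p, hp⟩, Bl_mono (by linarith) hqp⟩
  have h1 : val (fun p => f [p.1]) q = f [hex.choose.1] := by
    simp only [val, dif_pos hex]
  have hp := hex.choose.2
  have h2 := val_Bl hU (hCX (hSC _ hp)) hR ht0.le (hf.mono (hST _ hp)) hex.choose_spec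
  rw [H971.Low.dl_const]
  simp [h1, h2]

theorem Fi_Ks [CompactSpace M] {ρ : ℝ} (hU : UniqSeg M ρ) {m : ℕ} (hm : PP h m)
    (S : Finset (M × ℝ)) : (∀ p ∈ S, p ∈ Xt h) → ∀ s t : ℝ, 0 < s → s < t → Rad h ρ t →
      Fi (Ks h S t) (Ks h S s) (m + 1) := by
  classical
  induction S using Finset.induction_on with
  | empty =>
    intro _ s t _ _ _
    refine Fi_of_triv fun f _ => ?_
    have : Ks h ∅ s = ∅ := by simp [Ks]
    rw [this]
    exact exL_empty _ _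
  | insert p S _ ih =>
    intro hS s t hs hst hR
    have hp : p ∈ Xt h := hS p (Finset.mem_insert_self p S)
    have hS' : ∀ q ∈ S, q ∈ Xt h := fun q hq => hS q (Finset.mem_insert_of_mem hq)
    obtain ⟨u, hu1, hu2⟩ := exists_between hst
    have hRu : Rad h ρ u := hR.mono hu2.le
    have hRs : Rad h ρ s := hR.mono hst.le
    rw [Ks_insert, Ks_insert]
    refine Fi_union (glueH (M × ℝ)) (A := Bl h p s) (A' := Bl h p u) (A'' := Bl h p t)
      (B := Ks h S s) (B' := Ks h S u) (B'' := Ks h S t) (isCompact_Bl p s) (isCompact_Ks S s)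
      (Bl_mono hu1.le) (Ks_mono hu1.le) (Bl_mono hu2.le) (Ks_mono hu2.le) ?_
      (ih hS' u t (hs.trans hu1) hu2 hR) ?_
    · exact Fi_of_triv fun f hf => exL_Bl_pos hU hp hRu (hs.trans hu1).le (Nat.succ_pos m)
        (hf.mono (Bl_mono hu2.le))
    · have hc : IsCompact (Bl h p s ∩ Ks h S s) := (isCompact_Bl p s).inter (isCompact_Ks S s)
      refine (hm _ hc (fun q hq => hq.1.1) (min (u - s) (1 / 8)) (by
        have : 0 < u - s := by linarith
        positivity)).mono ?_ Subset.rfl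
      rintro y ⟨hy, x, ⟨hx1, hx2⟩, hd⟩
      refine ⟨th_Bl hRs hp hy hx1 hd (min_le_left _ _) (min_le_right _ _), ?_⟩
      obtain ⟨p', hp', hx2⟩ := mem_Ks.1 hx2
      exact mem_Ks.2 ⟨p', hp', th_Bl hRs (hS' p' hp') hy hx2 hd (min_le_left _ _)
        (min_le_right _ _)⟩

theorem PP_all [CompactSpace M] {ρ : ℝ} (hρ : 0 < ρ) (hU : UniqSeg M ρ) (m : ℕ) : PP h m := by
  induction m with
  | zero => exact PP_zero hρ hU
  | succ m ih =>
    intro C hC hCX δ hδ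
    obtain ⟨t, ht0, hR, S, hSC, hCS, hST⟩ := exists_net hρ hC hδ hCX
    refine (Fi_Ks hU ih S (fun p hp => hCX (hSC p hp)) (t / 2) t (by linarith) (by linarith)
      hR).mono ?_ hCS
    intro y hy
    obtain ⟨p, hp, hy⟩ := mem_Ks.1 hy
    exact hST p hp hy

theorem isCompact_Slb [CompactSpace M] (R : ℝ) : IsCompact (Slb h R) := by
  have h1 : IsCompact ((univ : Set M) ×ˢ Icc (-R) R) := isCompact_univ.prod isCompact_Icc
  refine h1.of_isClosed_subset ?_ ?_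
  · have e : Slb h R = Xt h ∩ {q | |q.2| ≤ R} := rfl
    rw [e]
    exact isClosed_Xt.inter (isClosed_le (by fun_prop) continuous_const)
  · rintro q ⟨-, hq⟩
    rw [abs_le] at hq
    exact ⟨mem_univ _, hq.1, hq.2⟩

theorem Fi_Slb [CompactSpace M] {ρ : ℝ} (hρ : 0 < ρ) (hU : UniqSeg M ρ) (j : ℕ) {R R' : ℝ}
    (hRR : R < R') : Fi (Slb h R') (Slb h R) j := by
  refine (PP_all hρ hU j _ (isCompact_Slb R) (fun q hq => hq.1) (R' - R) (by linarith)).mono ?_
    Subset.rfl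
  rintro y ⟨hy, x, hx, hd⟩
  refine ⟨hy, ?_⟩
  have h1 : dist y.2 x.2 ≤ dist y x := le_max_right _ _
  rw [Real.dist_eq] at h1
  have h2 := abs_sub_abs_le_abs_sub y.2 x.2
  have h3 := hx.2
  linarith

end

end Vale.Agent.P216.B7921

namespace Vale.Agent.P216.B7

theorem z8Goal : Z8Goal := by
  intro M _ _ ρ hρ hU h j _ R R' _ hRR
  obtain ⟨ι, hι, g, hg⟩ := B7921.Fi_Slb (h := h) hρ hU j hRR
  obtain ⟨n, ⟨e⟩⟩ := Finite.exists_equiv_fin ι
  refine ⟨n, fun i => g (e.symm i), fun f hf => ?_⟩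
  obtain ⟨i, hi⟩ := hg f hf
  exact ⟨e i, by simp only [e.symm_apply_apply]; exact hi⟩

end Vale.Agent.P216.B7
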