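import Vale.Agent.P216.H787.Cls

/-!
# P216-B7, Z8: finitely many classes, abstract part

`Fi K' K j` : the classes of degree `j` (over `ZMod 2`) of `K'` restrict to finitely many classes of
`K`.
-/

set_option linter.all false

open Set

namespace Vale.Agent.P216.B7921

open Vale.Agent.P216.Sl Vale.Agent.P216.PS

section

variable {k : Type} [Field k] {E : Type} [PseudoMetricSpace E]

theorem dl_sub_fun (f g : List E → k) (l : List E) :
    dl (fun l => f l - g l) l = dl f l - dl g l := by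
  have h1 := ev_add_fun f (fun l => (-1 : k) * g l) (bdL l)
  have h2 := ev_smul_fun (-1 : k) g (bdL l)
  have e : (fun l => f l - g l) = fun l => f l + (-1 : k) * g l := by
    funext l; ring
  simp only [dl]
  rw [e, h1, h2]
  ring

theorem CocL.sub {X : Set E} {n : ℕ} {f g : List E → k} (hf : CocL X n f) (hg : CocL X n g) :
    CocL X n fun l => f l - g l := by
  obtain ⟨ε, hε, h1⟩ := hf
  obtain ⟨ε', hε', h2⟩ := hg
  refine ⟨min ε ε', lt_min hε hε', fun l hl hs => ?_⟩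
  rw [dl_sub_fun, h1 l hl ⟨hs.1, fun x hx y hy => (hs.2 x hx y hy).trans_le (min_le_left _ _)⟩,
    h2 l hl ⟨hs.1, fun x hx y hy => (hs.2 x hx y hy).trans_le (min_le_right _ _)⟩, sub_zero]

theorem ExL.sub {X : Set E} {n : ℕ} {f g : List E → k} (hf : ExL X n f) (hg : ExL X n g) :
    ExL X n fun l => f l - g l := by
  obtain ⟨a, ha, ε, hε, h1⟩ := hf
  obtain ⟨b, hb, ε', hε', h2⟩ := hg
  refine ⟨fun l => a l - b l, fun hn l => ?_, min ε ε', lt_min hε hε', fun l hl hs => ?_⟩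
  · show a l - b l = 0
    rw [ha hn, hb hn, sub_zero]
  · rw [dl_sub_fun, ← h1 l hl ⟨hs.1, fun x hx y hy => (hs.2 x hx y hy).trans_le (min_le_left _ _)⟩,
      ← h2 l hl ⟨hs.1, fun x hx y hy => (hs.2 x hx y hy).trans_le (min_le_right _ _)⟩]

theorem exL_cg {X : Set E} {n : ℕ} {f g : List E → k} (hf : ExL X n f)
    (h : ∀ l, f l = g l) : ExL X n g := by
  have : f = g := funext h
  rwa [← this]

/-- Cochains agreeing with a coboundary give the primitive data. -/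
def Pr (X : Set E) (n : ℕ) (f a : List E → k) : Prop :=
  ∃ ε > 0, ∀ l, l.length = n + 1 → SmL X ε l → f l = dl a l

theorem Pr.mono {X Y : Set E} {n : ℕ} {f a : List E → k} (h : Pr Y n f a) (hX : X ⊆ Y) :
    Pr X n f a := by
  obtain ⟨ε, hε, h⟩ := h
  exact ⟨ε, hε, fun l hl hs => h l hl (hs.mono hX le_rfl)⟩

theorem Pr.sub {X : Set E} {n : ℕ} {f g a b : List E → k} (h : Pr X n f a) (h' : Pr X n g b) :
    Pr X n (fun l => f l - g l) fun l => a l - b l := by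
  obtain ⟨ε, hε, h1⟩ := h
  obtain ⟨ε', hε', h2⟩ := h'
  refine ⟨min ε ε', lt_min hε hε', fun l hl hs => ?_⟩
  rw [dl_sub_fun, ← h1 l hl ⟨hs.1, fun x hx y hy => (hs.2 x hx y hy).trans_le (min_le_left _ _)⟩,
    ← h2 l hl ⟨hs.1, fun x hx y hy => (hs.2 x hx y hy).trans_le (min_le_right _ _)⟩]

theorem Pr.coc {X Y : Set E} {n : ℕ} {f a b : List E → k} (h : Pr X n f a) (h' : Pr Y n f b) :
    ∃ ε > 0, ∀ l, l.length = n + 1 → SmL (X ∩ Y) ε l → dl (fun l => a l - b l) l = 0 := by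
  obtain ⟨ε, hε, h1⟩ := h
  obtain ⟨ε', hε', h2⟩ := h'
  refine ⟨min ε ε', lt_min hε hε', fun l hl hs => ?_⟩
  rw [dl_sub_fun, ← h1 l hl ⟨fun x hx => (hs.1 x hx).1,
      fun x hx y hy => (hs.2 x hx y hy).trans_le (min_le_left _ _)⟩,
    ← h2 l hl ⟨fun x hx => (hs.1 x hx).2,
      fun x hx y hy => (hs.2 x hx y hy).trans_le (min_le_right _ _)⟩, sub_self]

end

section Fi

variable {E : Type} [MetricSpace E]

/-- finitely many classes -/
def Fi (K' K : Set E) (j : ℕ) : Prop :=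
  ∃ (ι : Type) (_ : Finite ι) (g : ι → List E → ZMod 2), ∀ f : List E → ZMod 2, CocL K' j f →
    ∃ i, ExL K j fun l => f l - g i l

theorem Fi.mono {K' K L' L : Set E} {j : ℕ} (h : Fi K' K j) (h1 : K' ⊆ L') (h2 : L ⊆ K) :
    Fi L' L j := by
  obtain ⟨ι, hι, g, h⟩ := h
  refine ⟨ι, hι, g, fun f hf => ?_⟩
  obtain ⟨i, hi⟩ := h f (hf.mono h1)
  exact ⟨i, hi.mono h2⟩

theorem Fi_of_triv {K' K : Set E} {j : ℕ}
    (h : ∀ f : List E → ZMod 2, CocL K' j f → ExL K j f) : Fi K' K j :=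
  ⟨Unit, inferInstance, fun _ _ => 0, fun f hf => ⟨(), exL_cg (h f hf) fun l => (sub_zero _).symm⟩⟩

/-- The gluing lemma (Mayer-Vietoris), as a hypothesis. -/
def GlueH (E : Type) [MetricSpace E] : Prop := ∀ (A B : Set E), IsCompact A → IsCompact B →
  ∀ (m : ℕ) (f a b : List E → ZMod 2), CocL (A ∪ B) (m + 1) f → Pr A (m + 1) f a →
    Pr B (m + 1) f b → ExL (A ∩ B) m (fun l => a l - b l) → ExL (A ∪ B) (m + 1) f

theorem Fi_union (hG : GlueH E) {A A' A'' B B' B'' : Set E} (hA : IsCompact A) (hB : IsCompact B)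
    (hAA : A ⊆ A') (hBB : B ⊆ B') (hA2 : A' ⊆ A'') (hB2 : B' ⊆ B'') {m : ℕ}
    (h1 : Fi A'' A' (m + 1)) (h2 : Fi B'' B' (m + 1)) (h3 : Fi (A' ∩ B') (A ∩ B) m) :
    Fi (A'' ∪ B'') (A ∪ B) (m + 1) := by
  classical
  obtain ⟨ι₁, hι₁, g₁, h1⟩ := h1
  obtain ⟨ι₂, hι₂, g₂, h2⟩ := h2
  obtain ⟨ι₃, hι₃, g₃, h3⟩ := h3
  let R1 : ι₁ × ι₂ → (List E → ZMod 2) → Prop := fun i f =>
    CocL (A'' ∪ B'') (m + 1) f ∧ ExL A' (m + 1) (fun l => f l - g₁ i.1 l) ∧
      ExL B' (m + 1) (fun l => f l - g₂ i.2 l)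
  let f0 : ι₁ × ι₂ → List E → ZMod 2 := fun i => if h : ∃ f, R1 i f then h.choose else fun _ => 0
  have f0_spec : ∀ i f, R1 i f → R1 i (f0 i) := fun i f hf => by
    have hex : ∃ f, R1 i f := ⟨f, hf⟩
    simp only [f0, dif_pos hex]
    exact hex.choose_spec
  let R2 : (ι₁ × ι₂) × ι₃ → (List E → ZMod 2) → (List E → ZMod 2) → (List E → ZMod 2) → Prop :=
    fun i f a b => CocL (A'' ∪ B'') (m + 1) f ∧ Pr A' (m + 1) (fun l => f l - f0 i.1 l) a ∧
      Pr B' (m + 1) (fun l => f l - f0 i.1 l) b ∧ ExL (A ∩ B) m (fun l => a l - b l - g₃ i.2 l)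
  let gg : (ι₁ × ι₂) × ι₃ → List E → ZMod 2 := fun i =>
    if h : ∃ f, ∃ a b, R2 i f a b then h.choose else fun _ => 0
  refine ⟨(ι₁ × ι₂) × ι₃, inferInstance, gg, fun f hf => ?_⟩
  obtain ⟨i₁, e1⟩ := h1 f (hf.mono subset_union_left)
  obtain ⟨i₂, e2⟩ := h2 f (hf.mono subset_union_right)
  have hR1 : R1 (i₁, i₂) f := ⟨hf, e1, e2⟩
  have hR0 := f0_spec _ _ hR1
  have d1 : ExL A' (m + 1) (fun l => f l - f0 (i₁, i₂) l) :=
    exL_cg (ExL.sub hR1.2.1 hR0.2.1) fun l => by ring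
  have d2 : ExL B' (m + 1) (fun l => f l - f0 (i₁, i₂) l) :=
    exL_cg (ExL.sub hR1.2.2 hR0.2.2) fun l => by ring
  obtain ⟨a, -, ha⟩ := d1
  obtain ⟨b, -, hb⟩ := d2
  have ha' : Pr A' (m + 1) (fun l => f l - f0 (i₁, i₂) l) a := ha
  have hb' : Pr B' (m + 1) (fun l => f l - f0 (i₁, i₂) l) b := hb
  have hab : CocL (A' ∩ B') m (fun l => a l - b l) := ha'.coc hb'
  obtain ⟨i₃, e3⟩ := h3 _ hab
  refine ⟨((i₁, i₂), i₃), ?_⟩
  have hex : ∃ f, ∃ a b, R2 ((i₁, i₂), i₃) f a b := ⟨f, a, b, hf, ha', hb', e3⟩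
  have hgg : gg ((i₁, i₂), i₃) = hex.choose := by simp only [gg, dif_pos hex]
  obtain ⟨a₁, b₁, c1, c2, c3, c4⟩ := hex.choose_spec
  rw [hgg]
  set f₁ := hex.choose
  have c1' : CocL (A'' ∪ B'') (m + 1) f₁ := c1
  have k1 : CocL (A ∪ B) (m + 1) (fun l => f l - f₁ l) :=
    (CocL.sub hf c1').mono (union_subset_union (hAA.trans hA2) (hBB.trans hB2))
  have k2 : Pr A (m + 1) (fun l => f l - f₁ l) fun l => a l - a₁ l := by
    have := (Pr.sub ha' c2).mono hAA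
    obtain ⟨ε, hε, h⟩ := this
    refine ⟨ε, hε, fun l hl hs => ?_⟩
    rw [← h l hl hs]
    ring
  have k3 : Pr B (m + 1) (fun l => f l - f₁ l) fun l => b l - b₁ l := by
    have := (Pr.sub hb' c3).mono hBB
    obtain ⟨ε, hε, h⟩ := this
    refine ⟨ε, hε, fun l hl hs => ?_⟩
    rw [← h l hl hs]
    ring
  exact hG A B hA hB m _ _ _ k1 k2 k3 (exL_cg (ExL.sub e3 c4) fun l => by ring)

end Fi

end Vale.Agent.P216.B7921
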